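import Vale.Agent.P181.TL.Defs

set_option autoImplicit false

/-!
# P181, TR: `r` long rows below row one, an arbitrary tail, `b ≥ C a`: the literals

Rows: `l` (row one), `x : Fin r → ℕ` (the `r ≥ 2` label rows), `σ : Fin k → ℕ` (the tail). Every
letter gets a label in `ℕ ^ r`; the labels are read in a frame `z_1, .., z_r` of heads (Cramer), so
that every labelled tail polynomial becomes a highest weight polynomial as soon as
`σ_1 + Σ labels ≤ x_r`. Only a gap of size about `a ^ 2 / M` below row `r + 1` is needed, because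
`r ≥ 2` label rows give about `a ^ (r - 1)` values to every letter.
-/

open MvPolynomial

namespace Vale.Agent.P181.TRL

open Vale.Agent.P181.T4 (HW ex)
open Vale.Agent.P181.H280 (plethMult)
open Vale.Agent.P181.SZ
open Vale.Agent.P181.TL (KK)

/-- The shape `(l; x; σ)`. -/
def shp {r k : ℕ} (l : ℕ) (x : Fin r → ℕ) (σ : Fin k → ℕ) : Fin (r + k + 1) → ℕ :=
  Fin.cons l (Fin.append x σ)

/-- **(R1a)** bordering by one row: `F(V_0 x_ij - V_i x_0j) / V_0 ^ (|σ| - σ_1)` (helper540,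
#14197). The new column `none` carries `σ 0` cells; at `V = e_0` the result is `F`. -/
def BorR : Prop := ∀ (k : ℕ) (ι : Type) [Fintype ι] (σ : Fin (k + 1) → ℕ),
  ∃ B : HW (k + 1) ι σ →ₗ[ℂ] HW (k + 2) (Option ι) (Fin.cons (σ 0) σ),
    ∀ F, (∀ v, coeff v (B F).1 ≠ 0 → ∑ i, v (i, none) = σ 0) ∧
      (∀ d : ι → ℕ, (∀ v, coeff v F.1 ≠ 0 → ∀ j, ∑ i, v (i, j) = d j) →
        ∀ v, coeff v (B F).1 ≠ 0 → ∀ j, ∑ i, v (i, some j) = d j) ∧
      aeval (fun q : Fin (k + 2) × Option ι => (q.2.elim (if q.1 = 0 then 1 else 0)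
        fun j => X (q.1, j) : MvPolynomial (Fin (k + 2) × ι) ℂ)) (B F).1 =
        rename (fun q : Fin (k + 1) × ι => (q.1.succ, q.2)) F.1

/-- **(R1b)** bordering by `r` rows: the iteration of `BorR` (`T` bounds the tail rows). -/
def BorRR : Prop := ∀ (r k T : ℕ) (ι : Type) [Fintype ι] (u : ι → ℕ) (σ : Fin k → ℕ),
  (∀ i, σ i ≤ T) →
  ∃ B : KK k ι u σ →ₗ[ℂ] KK (r + k) (ι ⊕ Fin r) (Sum.elim u fun _ => T)
      (Fin.append (fun _ => T) σ),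
    ∀ F, aeval (fun q : Fin (r + k) × (ι ⊕ Fin r) => (q.2.elim (fun j => X (q.1, j))
        fun c => if q.1 = Fin.castAdd k c then 1 else 0 : MvPolynomial (Fin (r + k) × ι) ℂ))
        (B F).1 =
      rename (fun q : Fin k × ι => (Fin.natAdd r q.1, q.2)) F.1

/-- **(R1c)** one labelled tail polynomial in the frame: `det ^ (x_r - Σ κ - T)`, leading minors,
the Cramer determinants with the labels as exponents, times `BorRR`. At `z_c = e_c` the result is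
(monomial of the labels) times `F`. -/
def FrameR : Prop := ∀ (r k T : ℕ) (ι : Type) [Fintype ι] (u : ι → ℕ) (σ : Fin k → ℕ)
  (x κ : Fin r → ℕ) (α : ι → Fin r → ℕ), 1 ≤ r → Antitone x → (∀ i, σ i ≤ T) →
  (∀ i, T + ∑ c, κ c ≤ x i) → (∀ i, ∑ j, α j i = κ i) →
  ∃ B : KK k ι u σ →ₗ[ℂ] KK (r + k) (ι ⊕ Fin r)
      (Sum.elim (fun j => u j + ∑ i, α j i) fun c => x c - κ c) (Fin.append x σ),
    ∀ F, aeval (fun q : Fin (r + k) × (ι ⊕ Fin r) => (q.2.elim (fun j => X (q.1, j))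
        fun c => if q.1 = Fin.castAdd k c then 1 else 0 : MvPolynomial (Fin (r + k) × ι) ℂ))
        (B F).1 =
      (∏ j, ∏ i, X (Fin.castAdd k i, j) ^ α j i) *
        rename (fun q : Fin k × ι => (Fin.natAdd r q.1, q.2)) F.1

open scoped Classical in
/-- **(R1)** the lift: letters `ι` (tail contents `u`, labels `α`, sizes `s`), heads `η` of sizes
`p` in `r` groups (sizes in different groups differ). -/
def LiftR : Prop := ∀ (r k T : ℕ) (ι η : Type) [Fintype ι] [Fintype η] (s u : ι → ℕ) (p : η → ℕ)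
  (g : η → Fin r) (x κ : Fin r → ℕ) (σ : Fin k → ℕ) (AS : Finset (ι → Fin r → ℕ)),
  1 ≤ r → Antitone x → (∀ i, σ i ≤ T) → (∀ i, T + ∑ c, κ c ≤ x i) →
  (∀ j h, s j < p h) → (∀ h h', p h = p h' → g h = g h') →
  (∀ α ∈ AS, ∀ j, u j + ∑ i, α j i = s j) → (∀ α ∈ AS, ∀ i, ∑ j, α j i = κ i) →
  (∀ α ∈ AS, ∀ α' ∈ AS, ∀ j j', s j = s j' → j ≠ j' → α j ≠ α' j') →
  (∀ c, κ c < x c) → (∀ c, ∑ h ∈ Finset.univ.filter (fun h => g h = c), p h = x c - κ c) →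
  AS.card * Module.finrank ℂ (KK k ι u σ) ≤
    Module.finrank ℂ (PK (r + k) (ι ⊕ η) (Sum.elim s p) (Fin.append x σ))

/-- **(R2)** the labels: sizes `F + 4 + (Q M + r) Y + i / M`, label one in the block
`[Y n, Y n + Y)`, `n = Q (i mod M) + q`, labels `2, .., r - 1` below `Y`, the last label is the
rest; pigeonhole over the sums `κ`. -/
def LabR : Prop := ∀ (a Q M Y r t : ℕ), 1 ≤ a → 1 ≤ Q → 1 ≤ M → 1 ≤ Y → 2 ≤ r →
  t / a / Q + 4 + (Q * M + r) * Y + a / M ≤ a →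
  ∃ (u s : Fin a × Fin Q → ℕ) (κ : Fin r → ℕ) (AS : Finset (Fin a × Fin Q → Fin r → ℕ)),
    (∀ i : Fin a, ∑ q, u (i, q) = t / a + if (i : ℕ) < t % a then 1 else 0) ∧
    (∀ j, 2 ≤ s j ∧ s j ≤ t / a / Q + 4 + (Q * M + r) * Y + a / M) ∧
    (∀ α ∈ AS, ∀ j, u j + ∑ i, α j i = s j) ∧ (∀ α ∈ AS, ∀ i, ∑ j, α j i = κ i) ∧
    (∀ α ∈ AS, ∀ α' ∈ AS, ∀ j j', s j = s j' → j ≠ j' → α j ≠ α' j') ∧
    ∑ i, κ i ≤ a * Q * (4 + (Q * M + r) * Y + a / M) ∧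
    Y ^ ((r - 1) * (a * Q)) ≤ (a ^ 2 * Q + 1) ^ r * AS.card

open scoped Classical in
/-- **(R3)** the heads: group `c` has total size `y c`, sizes in the `c`-th block of
`(a / 2, a]`. -/
def HeadR : Prop := ∀ (a r : ℕ) (y : Fin r → ℕ), 1 ≤ r → 8 * r ≤ a → (∀ c, 8 * r * a ≤ y c) →
  ∃ (H : ℕ) (p : Fin H → ℕ) (g : Fin H → Fin r), (∀ h, a < 2 * p h ∧ p h ≤ a) ∧
    (∀ h h', p h = p h' → g h = g h') ∧
    (∀ c, ∑ h ∈ Finset.univ.filter (fun h => g h = c), p h = y c) ∧ H * a ≤ 2 * ∑ c, y c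

/-- **(R4)** upper bound: the components of the `a` letters by their degrees in the `r` label
rows. -/
def UpR : Prop := ∀ (a b r k l : ℕ) (x : Fin r → ℕ) (σ : Fin k → ℕ),
  plethMult a b (r + k + 1) (shp l x σ) ≤
    (b + 1) ^ (a * r) * Module.finrank ℂ (HW k (Fin a) σ)

/-- **(R5)** lower bound, from `LiftR`, `LabR`, `HeadR`, `TL.RefB`, `LowerS`, `TransS`. -/
def LowR : Prop := ∀ (a b r k Q M Y T l : ℕ) (x : Fin r → ℕ) (σ : Fin k → ℕ) (f : Fin a → ℕ),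
  ∑ i, shp l x σ i = a * b → 1 ≤ a → 1 ≤ Q → 1 ≤ M → 1 ≤ Y → 2 ≤ r → 8 * r ≤ a →
  Antitone x → (∀ i, σ i ≤ T) →
  (∀ i : Fin a, f i = (∑ i, σ i) / a + if (i : ℕ) < (∑ i, σ i) % a then 1 else 0) →
  2 * ((∑ i, σ i) / a / Q + 4 + (Q * M + r) * Y + a / M) ≤ a →
  (∀ c, T + a * Q * (4 + (Q * M + r) * Y + a / M) + 8 * r * a ≤ x c) →
  3 * a * Q + 6 * ((∑ c, x c) / a) + 6 ≤ b →
  Y ^ ((r - 1) * (a * Q)) * Module.finrank ℂ (KK k (Fin a) f σ) ≤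
    (a ^ 2 * Q + 1) ^ r * plethMult b a (r + k + 1) (shp l x σ)

/-- **(R6)** from `UpR`, `TL.BalB`, `LowR`. -/
def CoreR : Prop := ∀ (a b r k Q M Y T l : ℕ) (x : Fin r → ℕ) (σ : Fin k → ℕ),
  ∑ i, shp l x σ i = a * b → 1 ≤ a → 1 ≤ Q → 1 ≤ M → 1 ≤ Y → 2 ≤ r → 8 * r ≤ a →
  Antitone x → (∀ i, σ i ≤ T) →
  2 * ((∑ i, σ i) / a / Q + 4 + (Q * M + r) * Y + a / M) ≤ a →
  (∀ c, T + a * Q * (4 + (Q * M + r) * Y + a / M) + 8 * r * a ≤ x c) →
  3 * a * Q + 6 * ((∑ c, x c) / a) + 6 ≤ b →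
  (b + 1) ^ (a * r) * (a + ∑ i, σ i - 1).choose (∑ i, σ i) * (a ^ 2 * Q + 1) ^ r ≤
    Y ^ ((r - 1) * (a * Q)) →
  plethMult a b (r + k + 1) (shp l x σ) ≤ plethMult b a (r + k + 1) (shp l x σ)

/-- **(R7)** final form: `b ≥ C a`, at most `a b / 60` boxes below row one, `λ_3 ≥ a ^ (2 - δ)`.
From `CoreR`, `PL.PolyS` (b below `a` times a power of `log a`) and FoulkesFiveQuarters (3)
(`H59.fin10`: at most `2 a ^ ε` rows `≥ b`, so there is a gap `≥ a ^ (2 - 2 δ)` below row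
`r + 1` for some `2 ≤ r ≤ 3 a ^ ε`). -/
def ThirdLong : Prop := ∃ C δ : ℝ, 0 < C ∧ 0 < δ ∧ ∀ (a b n : ℕ) (lam : Fin n → ℕ),
  Antitone lam → ∑ i, lam i = a * b → C * a ≤ b →
  60 * ∑ i : Fin n, (if 1 ≤ (i : ℕ) then lam i else 0) ≤ a * b →
  (a : ℝ) ^ (2 - δ) ≤ ex lam 2 → plethMult a b n lam ≤ plethMult b a n lam

end Vale.Agent.P181.TRL
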